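import Vale.Agent.P202.Mix.GeoDefs

/-!
P177, good class / masses in the limit (notes 9315 (G), 9353 (B)).

`U` an ultrafilter on `ℕ`, `h e : A e` ring elements, `L e` additive lengths (normalised).
`ell D c M = U-lim  len (h^c M_e)`, `mass D M = inf_c ell D c M`.
-/

namespace Vale.Agent.P177.Mass

open scoped ENNReal Topology
open Filter Vale.Agent.P202.Mix

universe u

/-! ### additive lengths -/

section Len

variable {R : Type u} [CommRing R] (L : AddLen R)
  {M N K : Type u} [AddCommGroup M] [Module R M] [AddCommGroup N] [Module R N]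
  [AddCommGroup K] [Module R K]

theorem len_congr (f : M ≃ₗ[R] N) : L.len M = L.len N := by
  have h := L.add (f : M →ₗ[R] N) (0 : N →ₗ[R] PUnit.{u + 1}) f.injective
    (fun y => ⟨0, Subsingleton.elim _ _⟩)
    (by
      intro y
      constructor
      · intro _
        exact f.surjective y
      · intro _
        rfl)
  rw [L.zero, add_zero] at h
  exact h.symm

theorem len_sub (P : Submodule R M) : L.len M = L.len P + L.len (M ⧸ P) :=
  L.add P.subtype P.mkQ P.injective_subtype P.mkQ_surjective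
    (by
      rw [LinearMap.exact_iff, Submodule.ker_mkQ, Submodule.range_subtype])

theorem len_inj (f : M →ₗ[R] N) (hf : Function.Injective f) : L.len M ≤ L.len N := by
  rw [len_congr L (LinearEquiv.ofInjective f hf), len_sub L (LinearMap.range f)]
  exact le_self_add

theorem len_ker_range (f : M →ₗ[R] N) :
    L.len M = L.len (LinearMap.ker f) + L.len (LinearMap.range f) := by
  rw [len_sub L (LinearMap.ker f), len_congr L f.quotKerEquivRange]

theorem len_range_le (f : M →ₗ[R] N) : L.len (LinearMap.range f) ≤ L.len M := by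
  rw [len_ker_range L f]
  exact le_add_self

theorem len_surj (f : M →ₗ[R] N) (hf : Function.Surjective f) : L.len N ≤ L.len M := by
  have h := len_range_le L f
  rwa [LinearMap.range_eq_top.2 hf, len_congr L (Submodule.topEquiv (R := R) (M := N))] at h

theorem len_mono {P Q : Submodule R M} (h : P ≤ Q) : L.len P ≤ L.len Q :=
  len_inj L (Submodule.inclusion h) (Submodule.inclusion_injective h)

theorem len_map_le (f : M →ₗ[R] N) (P : Submodule R M) : L.len (P.map f) ≤ L.len P := by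
  have h := len_range_le L (f ∘ₗ P.subtype)
  rwa [LinearMap.range_comp, Submodule.range_subtype] at h

theorem len_map_inj (f : M →ₗ[R] N) (hf : Function.Injective f) (P : Submodule R M) :
    L.len (P.map f) = L.len P :=
  (len_congr L (Submodule.equivMapOfInjective f hf P)).symm

theorem len_subsingleton [Subsingleton M] : L.len M = 0 := by
  have h := len_inj L (0 : M →ₗ[R] PUnit.{u + 1}) (fun x y _ => Subsingleton.elim x y)
  rw [L.zero] at h
  exact le_antisymm h zero_le

/-- `len (P.map f) + len (P ⊓ ker f) = len P`. -/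
theorem len_map_add (f : M →ₗ[R] N) (P : Submodule R M) :
    L.len P = L.len (P ⊓ LinearMap.ker f : Submodule R M) + L.len (P.map f) := by
  rw [len_ker_range L (f ∘ₗ P.subtype), LinearMap.range_comp, Submodule.range_subtype]
  congr 1
  rw [LinearMap.ker_comp]
  refine (len_map_inj L P.subtype P.injective_subtype _).symm.trans ?_
  rw [Submodule.map_comap_subtype]

theorem len_range_le_of_ker_le (f : M →ₗ[R] N) (g : M →ₗ[R] K)
    (h : LinearMap.ker f ≤ LinearMap.ker g) :
    L.len (LinearMap.range g) ≤ L.len (LinearMap.range f) := by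
  rw [← len_congr L f.quotKerEquivRange]
  have h3 := len_range_le L ((LinearMap.ker f).liftQ g h)
  rwa [Submodule.range_liftQ] at h3

theorem len_map_le_of_ker_le (f : M →ₗ[R] N) (g : M →ₗ[R] K) (P : Submodule R M)
    (h : P ⊓ LinearMap.ker f ≤ LinearMap.ker g) :
    L.len (P.map g) ≤ L.len (P.map f) := by
  have h1 := len_range_le_of_ker_le L (f ∘ₗ P.subtype) (g ∘ₗ P.subtype) (by
    intro x hx
    exact h ⟨x.2, hx⟩)
  rwa [LinearMap.range_comp, LinearMap.range_comp, Submodule.range_subtype] at h1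

/-- `len (φ P) ≤ len (φ (P ⊓ ker g)) + len (g P)`. -/
theorem len_map_le_add (φ : M →ₗ[R] N) (g : M →ₗ[R] K) (P : Submodule R M) :
    L.len (P.map φ) ≤ L.len ((P ⊓ LinearMap.ker g).map φ) + L.len (P.map g) := by
  rw [len_map_add L ((P ⊓ LinearMap.ker g).map φ).mkQ (P.map φ), Submodule.ker_mkQ,
    inf_eq_right.2 (Submodule.map_mono inf_le_left)]
  gcongr
  rw [← Submodule.map_comp]
  refine len_map_le_of_ker_le L g _ P ?_
  intro x hx
  simp only [LinearMap.mem_ker, LinearMap.comp_apply, Submodule.mkQ_apply,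
    Submodule.Quotient.mk_eq_zero]
  exact Submodule.mem_map_of_mem hx

end Len

/-! ### the submodules `h^c M` -/

section Pow

variable {R : Type u} [CommRing R] (h : R) (c : ℕ) (M : Type u) [AddCommGroup M] [Module R M]

/-- `h^c M`. -/
def hp : Submodule R M := LinearMap.range (LinearMap.lsmul R M (h ^ c))

variable {M}

theorem mem_hp {x : M} : x ∈ hp h c M ↔ ∃ y, h ^ c • y = x := by
  simp [hp, LinearMap.mem_range]

end Pow

/-! ### limits along an ultrafilter -/

section Ulim

/-- the limit of `f` along the ultrafilter `U`. -/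
noncomputable def ulim (U : Ultrafilter ℕ) (f : ℕ → ℝ≥0∞) : ℝ≥0∞ := (U.map f).lim

variable (U : Ultrafilter ℕ) {f g : ℕ → ℝ≥0∞}

theorem tendsto_ulim (f : ℕ → ℝ≥0∞) : Tendsto f U (𝓝 (ulim U f)) :=
  (U.map f).le_nhds_lim

theorem ulim_eq {a : ℝ≥0∞} (h : Tendsto f U (𝓝 a)) : ulim U f = a :=
  tendsto_nhds_unique (tendsto_ulim U f) h

theorem ulim_const (a : ℝ≥0∞) : ulim U (fun _ => a) = a := ulim_eq U tendsto_const_nhds

theorem ulim_mono (h : ∀ᶠ e in U, f e ≤ g e) : ulim U f ≤ ulim U g :=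
  le_of_tendsto_of_tendsto (tendsto_ulim U f) (tendsto_ulim U g) h

theorem ulim_congr (h : ∀ᶠ e in U, f e = g e) : ulim U f = ulim U g :=
  le_antisymm (ulim_mono U (h.mono fun _ h => h.le)) (ulim_mono U (h.mono fun _ h => h.ge))

theorem ulim_add (f g : ℕ → ℝ≥0∞) : ulim U (fun e => f e + g e) = ulim U f + ulim U g :=
  ulim_eq U ((tendsto_ulim U f).add (tendsto_ulim U g))

theorem ulim_le {a : ℝ≥0∞} (h : ∀ᶠ e in U, f e ≤ a) : ulim U f ≤ a := by
  rw [← ulim_const U a]
  exact ulim_mono U h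

theorem le_ulim {a : ℝ≥0∞} (h : ∀ᶠ e in U, a ≤ f e) : a ≤ ulim U f := by
  rw [← ulim_const U a]
  exact ulim_mono U h

theorem eventually_lt {a : ℝ≥0∞} (h : ulim U f < a) : ∀ᶠ e in U, f e < a :=
  (tendsto_ulim U f).eventually_lt_const h

theorem eventually_gt {a : ℝ≥0∞} (h : a < ulim U f) : ∀ᶠ e in U, a < f e :=
  (tendsto_ulim U f).eventually_const_lt h

theorem ulim_mul_const (a : ℝ≥0∞) (ha : a ≠ ⊤) (f : ℕ → ℝ≥0∞) :
    ulim U (fun e => a * f e) = a * ulim U f :=
  ulim_eq U (ENNReal.Tendsto.const_mul (tendsto_ulim U f) (Or.inr ha))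

end Ulim

/-! ### masses -/

/-- the data: an ultrafilter, elements `h e` and additive lengths. -/
structure Dat (A : ℕ → Type u) [∀ e, CommRing (A e)] where
  U : Ultrafilter ℕ
  h : ∀ e, A e
  L : ∀ e, AddLen (A e)

section Mass

variable {A : ℕ → Type u} [∀ e, CommRing (A e)] (D : Dat A)
  (M N K : ℕ → Type u) [∀ e, AddCommGroup (M e)] [∀ e, Module (A e) (M e)]
  [∀ e, AddCommGroup (N e)] [∀ e, Module (A e) (N e)]
  [∀ e, AddCommGroup (K e)] [∀ e, Module (A e) (K e)]

/-- `U-lim len (h^c M_e)`. -/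
noncomputable def ell (c : ℕ) : ℝ≥0∞ := ulim D.U fun e => (D.L e).len (hp (D.h e) c (M e))

/-- the mass of a sequence of modules. -/
noncomputable def mass : ℝ≥0∞ := ⨅ c, ell D M c

variable {M N K}

theorem hp_le {R : Type u} [CommRing R] (h : R) {c c' : ℕ} (hc : c ≤ c') {M : Type u}
    [AddCommGroup M] [Module R M] : hp h c' M ≤ hp h c M := by
  intro x hx
  obtain ⟨y, rfl⟩ := (mem_hp h c').1 hx
  refine (mem_hp h c).2 ⟨h ^ (c' - c) • y, ?_⟩
  rw [smul_smul, ← pow_add]
  congr 2
  omega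

theorem ell_anti {c c' : ℕ} (hc : c ≤ c') : ell D M c' ≤ ell D M c :=
  ulim_mono _ (Eventually.of_forall fun _e => len_mono _ (hp_le _ hc))

theorem mass_le_ell (c : ℕ) : mass D M ≤ ell D M c := iInf_le _ c

/-- almost surjective maps decrease the mass. -/
theorem mass_le_of_surj (f : ∀ e, M e →ₗ[A e] N e) (c : ℕ)
    (hf : ∀ᶠ e in D.U, ∀ y : N e, ∃ x, f e x = D.h e ^ c • y) : mass D N ≤ mass D M := by
  refine le_iInf fun k => (mass_le_ell D (k + c)).trans ?_
  refine ulim_mono _ (hf.mono fun e he => ?_)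
  refine (len_mono _ (?_ : _ ≤ (hp (D.h e) k (M e)).map (f e))).trans (len_map_le _ _ _)
  intro y hy
  obtain ⟨z, rfl⟩ := (mem_hp _ _).1 hy
  obtain ⟨x, hx⟩ := he z
  refine ⟨D.h e ^ k • x, (mem_hp _ _).2 ⟨x, rfl⟩, ?_⟩
  rw [map_smul, hx, smul_smul, ← pow_add]

/-- almost injective maps increase the mass. -/
theorem mass_le_of_inj (f : ∀ e, M e →ₗ[A e] N e) (c : ℕ)
    (hf : ∀ᶠ e in D.U, ∀ x : M e, f e x = 0 → D.h e ^ c • x = 0) : mass D M ≤ mass D N := by
  refine le_iInf fun k => (mass_le_ell D (k + c)).trans ?_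
  refine ulim_mono _ (hf.mono fun e he => ?_)
  -- `h^(k+c) M` is the image of `h^k f(M)` under a map
  let P : Submodule (A e) (M e) := (hp (D.h e) k (M e))
  have h1 : (D.L e).len (P.map (f e)) ≤ (D.L e).len (hp (D.h e) k (N e)) := by
    refine len_mono _ ?_
    rintro _ ⟨x, hx, rfl⟩
    obtain ⟨z, rfl⟩ := (mem_hp _ _).1 hx
    exact (mem_hp _ _).2 ⟨f e z, by rw [map_smul]⟩
  refine le_trans ?_ h1
  have hker : LinearMap.ker (f e) ≤ LinearMap.ker (LinearMap.lsmul (A e) (M e) (D.h e ^ c)) := by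
    intro x hx
    simp only [LinearMap.mem_ker, LinearMap.lsmul_apply]
    exact he x (by simpa using hx)
  -- map from `P.map f` to `M` : `f x ↦ h^c x`
  have h2 : (D.L e).len (P.map (LinearMap.lsmul (A e) (M e) (D.h e ^ c))) ≤
      (D.L e).len (P.map (f e)) := by
    have e1 := len_ker_range (D.L e) ((f e) ∘ₗ P.subtype)
    have e2 : (D.L e).len (P.map (f e)) = (D.L e).len (P ⧸ LinearMap.ker ((f e) ∘ₗ P.subtype)) := by
      rw [len_congr (D.L e) ((f e) ∘ₗ P.subtype).quotKerEquivRange, LinearMap.range_comp,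
        Submodule.range_subtype]
    rw [e2]
    have hle : LinearMap.ker ((f e) ∘ₗ P.subtype) ≤
        LinearMap.ker ((LinearMap.lsmul (A e) (M e) (D.h e ^ c)) ∘ₗ P.subtype) := by
      rw [LinearMap.ker_comp, LinearMap.ker_comp]
      exact Submodule.comap_mono hker
    have h3 := len_range_le (D.L e) ((LinearMap.ker ((f e) ∘ₗ P.subtype)).liftQ _ hle)
    rwa [Submodule.range_liftQ, LinearMap.range_comp, Submodule.range_subtype] at h3
  refine le_trans (len_mono _ ?_) h2
  intro y hy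
  obtain ⟨z, rfl⟩ := (mem_hp _ _).1 hy
  refine ⟨D.h e ^ k • z, (mem_hp _ _).2 ⟨z, rfl⟩, ?_⟩
  rw [LinearMap.lsmul_apply, smul_smul, ← pow_add, add_comm c k]

/-- invariance of the mass under almost isomorphisms. -/
theorem mass_congr_almost (f : ∀ e, M e →ₗ[A e] N e) (c : ℕ)
    (hi : ∀ᶠ e in D.U, ∀ x : M e, f e x = 0 → D.h e ^ c • x = 0)
    (hs : ∀ᶠ e in D.U, ∀ y : N e, ∃ x, f e x = D.h e ^ c • y) : mass D M = mass D N :=
  le_antisymm (mass_le_of_inj D f c hi) (mass_le_of_surj D f c hs)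

theorem mass_congr (f : ∀ e, M e ≃ₗ[A e] N e) : mass D M = mass D N :=
  mass_congr_almost D (fun e => (f e : M e →ₗ[A e] N e)) 0
    (Eventually.of_forall fun _ x hx => by simpa using hx)
    (Eventually.of_forall fun e y => ⟨(f e).symm y, by simp⟩)

/-- modules killed by `h^c` have mass zero. -/
theorem mass_eq_zero (c : ℕ) (h0 : ∀ᶠ e in D.U, ∀ x : M e, D.h e ^ c • x = 0) :
    mass D M = 0 := by
  refine le_antisymm ((mass_le_ell D c).trans (ulim_le _ (h0.mono fun e he => ?_))) zero_le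
  have : hp (D.h e) c (M e) = ⊥ := by
    rw [eq_bot_iff]
    intro x hx
    obtain ⟨y, rfl⟩ := (mem_hp _ _).1 hx
    rw [he y]
    exact Submodule.zero_mem _
  rw [this]
  exact (len_subsingleton _).le

theorem hp_map {R : Type u} [CommRing R] (h : R) (c : ℕ) {M N : Type u}
    [AddCommGroup M] [Module R M] [AddCommGroup N] [Module R N] (g : M →ₗ[R] N) :
    (hp h c M).map g ≤ hp h c N := by
  rintro _ ⟨x, hx, rfl⟩
  obtain ⟨z, rfl⟩ := (mem_hp _ _).1 hx
  exact (mem_hp _ _).2 ⟨g z, by rw [map_smul]⟩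

theorem hp_map_surj {R : Type u} [CommRing R] (h : R) (c : ℕ) {M N : Type u}
    [AddCommGroup M] [Module R M] [AddCommGroup N] [Module R N] (g : M →ₗ[R] N)
    (hg : Function.Surjective g) : (hp h c M).map g = hp h c N := by
  refine le_antisymm (hp_map h c g) ?_
  intro y hy
  obtain ⟨z, rfl⟩ := (mem_hp _ _).1 hy
  obtain ⟨x, rfl⟩ := hg z
  exact ⟨h ^ c • x, (mem_hp _ _).2 ⟨x, rfl⟩, by rw [map_smul]⟩

theorem hp_smul {R : Type u} [CommRing R] (h : R) (j k : ℕ) {M : Type u}
    [AddCommGroup M] [Module R M] :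
    (hp h k M).map (LinearMap.lsmul R M (h ^ j)) = hp h (k + j) M := by
  ext y
  constructor
  · rintro ⟨x, hx, rfl⟩
    obtain ⟨z, rfl⟩ := (mem_hp _ _).1 hx
    exact (mem_hp _ _).2 ⟨z, by rw [LinearMap.lsmul_apply, smul_smul, ← pow_add, add_comm k j]⟩
  · intro hy
    obtain ⟨z, rfl⟩ := (mem_hp _ _).1 hy
    exact ⟨h ^ k • z, (mem_hp _ _).2 ⟨z, rfl⟩, by
      rw [LinearMap.lsmul_apply, smul_smul, ← pow_add, add_comm k j]⟩

/-- the basic inequality: `len (h^(k+j) N) ≤ len (h^j M) + len (h^k K)`. -/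
theorem len_hp_le {R : Type u} [CommRing R] (L : AddLen R) (h : R) (j k : ℕ) {M N K : Type u}
    [AddCommGroup M] [Module R M] [AddCommGroup N] [Module R N] [AddCommGroup K] [Module R K]
    (f : M →ₗ[R] N) (g : N →ₗ[R] K)
    (hfg : LinearMap.ker g ≤ LinearMap.range f) :
    L.len (hp h (k + j) N) ≤ L.len (hp h j M) + L.len (hp h k K) := by
  rw [← hp_smul]
  refine (len_map_le_add L _ g _).trans (add_le_add ?_ ?_)
  · refine (len_mono L ?_).trans (len_map_le L f _)
    rintro _ ⟨x, hx, rfl⟩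
    obtain ⟨z, rfl⟩ := hfg hx.2
    exact ⟨h ^ j • z, (mem_hp _ _).2 ⟨z, rfl⟩, by rw [map_smul]; rfl⟩
  · exact len_mono L (hp_map _ _ _)

theorem len_hp_ge {R : Type u} [CommRing R] (L : AddLen R) (h : R) (k : ℕ) {M N K : Type u}
    [AddCommGroup M] [Module R M] [AddCommGroup N] [Module R N] [AddCommGroup K] [Module R K]
    (f : M →ₗ[R] N) (g : N →ₗ[R] K) (hf : Function.Injective f) (hg : Function.Surjective g)
    (hfg : LinearMap.range f ≤ LinearMap.ker g) :
    L.len (hp h k M) + L.len (hp h k K) ≤ L.len (hp h k N) := by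
  rw [len_map_add L g (hp h k N), hp_map_surj h k g hg]
  gcongr
  rw [← len_map_inj L f hf]
  refine len_mono L (le_inf (hp_map _ _ _) ?_)
  rintro _ ⟨x, _, rfl⟩
  exact hfg ⟨x, rfl⟩

/-- additivity of the mass on (levelwise, eventually) exact sequences. -/
theorem mass_add (f : ∀ e, M e →ₗ[A e] N e) (g : ∀ e, N e →ₗ[A e] K e)
    (hf : ∀ᶠ e in D.U, Function.Injective (f e)) (hg : ∀ᶠ e in D.U, Function.Surjective (g e))
    (hfg : ∀ᶠ e in D.U, Function.Exact (f e) (g e)) :
    mass D N = mass D M + mass D K := by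
  have hex : ∀ᶠ e in D.U, LinearMap.ker (g e) = LinearMap.range (f e) :=
    hfg.mono fun e he => (LinearMap.exact_iff).1 he
  refine le_antisymm ?_ ?_
  · have key : ∀ j k : ℕ, mass D N ≤ ell D M j + ell D K k := by
      intro j k
      refine (mass_le_ell D (k + j)).trans ?_
      rw [ell, ell, ell, ← ulim_add]
      exact ulim_mono _ (hex.mono fun e he => len_hp_le _ _ _ _ (f e) (g e) he.le)
    rw [mass.eq_1 D M, ENNReal.iInf_add]
    refine le_iInf fun j => ?_
    rw [mass.eq_1 D K, ENNReal.add_iInf]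
    exact le_iInf fun k => key j k
  · refine le_iInf fun k => ?_
    refine (add_le_add (mass_le_ell D k) (mass_le_ell D k)).trans ?_
    rw [ell, ell, ell, ← ulim_add]
    exact ulim_mono _ ((hf.and (hg.and hex)).mono fun e he =>
      len_hp_ge _ _ _ (f e) (g e) he.1 he.2.1 he.2.2.ge)

end Mass

end Vale.Agent.P177.Mass
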