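import Vale.Agent.P177.Mass.Mass

/-!
P177, the functional `lam~` of note 9432 (A): `g n e` plays the role of `g_e^(1/p^n)`
(only `g (n+1) e ^ 2 ∣ g n e` is used), `F n M = U-lim len (g n e M_e)`,
`tld M = sup_n F n M`. Additive on all sequences, no finiteness.
-/

namespace Vale.Agent.P177.Mass

open scoped ENNReal Topology
open Filter Vale.Agent.P202.Mix

universe u

section Sm

variable {R : Type u} [CommRing R] (L : AddLen R) {M N K : Type u} [AddCommGroup M] [Module R M]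
  [AddCommGroup N] [Module R N] [AddCommGroup K] [Module R K]

/-- `r M`. -/
def sm (r : R) (M : Type u) [AddCommGroup M] [Module R M] : Submodule R M :=
  LinearMap.range (LinearMap.lsmul R M r)

theorem mem_sm {r : R} {x : M} : x ∈ sm r M ↔ ∃ y, r • y = x := by
  simp [sm, LinearMap.mem_range]

theorem sm_le {r s : R} (h : r ∣ s) : sm s M ≤ sm r M := by
  obtain ⟨t, rfl⟩ := h
  intro x hx
  obtain ⟨y, rfl⟩ := mem_sm.1 hx
  exact mem_sm.2 ⟨t • y, by rw [smul_smul]⟩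

theorem sm_map (r : R) (g : M →ₗ[R] N) : (sm r M).map g ≤ sm r N := by
  rintro _ ⟨x, hx, rfl⟩
  obtain ⟨z, rfl⟩ := mem_sm.1 hx
  exact mem_sm.2 ⟨g z, by rw [map_smul]⟩

theorem sm_map_surj (r : R) (g : M →ₗ[R] N) (hg : Function.Surjective g) :
    (sm r M).map g = sm r N := by
  refine le_antisymm (sm_map r g) ?_
  intro y hy
  obtain ⟨z, rfl⟩ := mem_sm.1 hy
  obtain ⟨x, rfl⟩ := hg z
  exact ⟨r • x, mem_sm.2 ⟨x, rfl⟩, by rw [map_smul]⟩

theorem sm_smul (r s : R) : (sm r M).map (LinearMap.lsmul R M s) = sm (s * r) M := by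
  ext y
  constructor
  · rintro ⟨x, hx, rfl⟩
    obtain ⟨z, rfl⟩ := mem_sm.1 hx
    exact mem_sm.2 ⟨z, by rw [LinearMap.lsmul_apply, smul_smul]⟩
  · intro hy
    obtain ⟨z, rfl⟩ := mem_sm.1 hy
    exact ⟨r • z, mem_sm.2 ⟨z, rfl⟩, by rw [LinearMap.lsmul_apply, smul_smul]⟩

theorem len_sm_le (r s : R) (f : M →ₗ[R] N) (g : N →ₗ[R] K)
    (hfg : LinearMap.ker g ≤ LinearMap.range f) :
    L.len (sm (s * r) N) ≤ L.len (sm s M) + L.len (sm r K) := by
  rw [← sm_smul]
  refine (len_map_le_add L _ g _).trans (add_le_add ?_ ?_)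
  · refine (len_mono L ?_).trans (len_map_le L f _)
    rintro _ ⟨x, hx, rfl⟩
    obtain ⟨z, rfl⟩ := hfg hx.2
    exact ⟨s • z, mem_sm.2 ⟨z, rfl⟩, by rw [map_smul]; rfl⟩
  · exact len_mono L (sm_map _ _)

theorem len_sm_ge (r : R) (f : M →ₗ[R] N) (g : N →ₗ[R] K) (hf : Function.Injective f)
    (hg : Function.Surjective g) (hfg : LinearMap.range f ≤ LinearMap.ker g) :
    L.len (sm r M) + L.len (sm r K) ≤ L.len (sm r N) := by
  rw [len_map_add L g (sm r N), sm_map_surj r g hg]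
  gcongr
  rw [← len_map_inj L f hf]
  refine len_mono L (le_inf (sm_map _ _) ?_)
  rintro _ ⟨x, _, rfl⟩
  exact hfg ⟨x, rfl⟩

theorem len_sm_inj (r : R) (f : M →ₗ[R] N) (hf : Function.Injective f) :
    L.len (sm r M) ≤ L.len (sm r N) := by
  rw [← len_map_inj L f hf]
  exact len_mono L (sm_map _ _)

theorem len_sm_surj (r : R) (f : M →ₗ[R] N) (hf : Function.Surjective f) :
    L.len (sm r N) ≤ L.len (sm r M) := by
  rw [← sm_map_surj r f hf]
  exact len_map_le L f _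

theorem len_sm_le_len (r : R) : L.len (sm r M) ≤ L.len M := len_range_le L _

/-- almost surjective. -/
theorem len_sm_le_of_surj (r s : R) (f : M →ₗ[R] N) (hf : ∀ y, ∃ x, f x = s • y) :
    L.len (sm (r * s) N) ≤ L.len (sm r M) := by
  refine (len_mono L ?_).trans (len_map_le L f _)
  intro y hy
  obtain ⟨z, rfl⟩ := mem_sm.1 hy
  obtain ⟨x, hx⟩ := hf z
  exact ⟨r • x, mem_sm.2 ⟨x, rfl⟩, by rw [map_smul, hx, smul_smul]⟩

/-- almost injective. -/
theorem len_sm_le_of_inj (r s : R) (f : M →ₗ[R] N) (hf : ∀ x, f x = 0 → s • x = 0) :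
    L.len (sm (s * r) M) ≤ L.len (sm r N) := by
  rw [← sm_smul]
  refine (len_map_le_of_ker_le L f _ _ ?_).trans (len_mono L (sm_map r f))
  intro x hx
  exact hf x hx.2

end Sm

/-- the data: an ultrafilter, a family `g n e` with `g (n+1) e ^ 2 ∣ g n e`, additive lengths. -/
structure TDat (A : ℕ → Type u) [∀ e, CommRing (A e)] where
  U : Ultrafilter ℕ
  g : ℕ → ∀ e, A e
  dvd : ∀ n e, g (n + 1) e * g (n + 1) e ∣ g n e
  L : ∀ e, AddLen (A e)

section Tld

variable {A : ℕ → Type u} [∀ e, CommRing (A e)] (D : TDat A)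
  (M N K : ℕ → Type u) [∀ e, AddCommGroup (M e)] [∀ e, Module (A e) (M e)]
  [∀ e, AddCommGroup (N e)] [∀ e, Module (A e) (N e)]
  [∀ e, AddCommGroup (K e)] [∀ e, Module (A e) (K e)]

/-- `U-lim len (g_n M_e)`. -/
noncomputable def FF (n : ℕ) : ℝ≥0∞ := ulim D.U fun e => (D.L e).len (sm (D.g n e) (M e))

/-- the functional `lam~`. -/
noncomputable def tld : ℝ≥0∞ := ⨆ n, FF D M n

variable {M N K}

theorem g_dvd_succ (n : ℕ) (e : ℕ) : D.g (n + 1) e ∣ D.g n e :=
  (Dvd.intro _ rfl).trans (D.dvd n e)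

theorem FF_mono : Monotone (FF D M) :=
  monotone_nat_of_le_succ fun n =>
    ulim_mono _ (Eventually.of_forall fun e => len_mono _ (sm_le (g_dvd_succ D n e)))

theorem FF_le_tld (n : ℕ) : FF D M n ≤ tld D M := le_iSup (FF D M) n

theorem tld_le_of_surj (f : ∀ e, M e →ₗ[A e] N e)
    (hf : ∀ n, ∀ᶠ e in D.U, ∀ y : N e, ∃ x, f e x = D.g n e • y) : tld D N ≤ tld D M := by
  refine iSup_le fun n => le_trans ?_ (FF_le_tld D (n + 1))
  refine ulim_mono _ ((hf (n + 1)).mono fun e he => ?_)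
  exact (len_mono _ (sm_le (D.dvd n e))).trans (len_sm_le_of_surj _ _ _ (f e) he)

theorem tld_le_of_inj (f : ∀ e, M e →ₗ[A e] N e)
    (hf : ∀ n, ∀ᶠ e in D.U, ∀ x : M e, f e x = 0 → D.g n e • x = 0) : tld D M ≤ tld D N := by
  refine iSup_le fun n => le_trans ?_ (FF_le_tld D (n + 1))
  refine ulim_mono _ ((hf (n + 1)).mono fun e he => ?_)
  exact (len_mono _ (sm_le (D.dvd n e))).trans (len_sm_le_of_inj _ _ _ (f e) he)

theorem tld_congr_almost (f : ∀ e, M e →ₗ[A e] N e)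
    (hi : ∀ n, ∀ᶠ e in D.U, ∀ x : M e, f e x = 0 → D.g n e • x = 0)
    (hs : ∀ n, ∀ᶠ e in D.U, ∀ y : N e, ∃ x, f e x = D.g n e • y) : tld D M = tld D N :=
  le_antisymm (tld_le_of_inj D f hi) (tld_le_of_surj D f hs)

theorem tld_congr (f : ∀ᶠ e in D.U, Nonempty (M e ≃ₗ[A e] N e)) : tld D M = tld D N := by
  refine iSup_congr fun n => ulim_congr _ (f.mono fun e he => ?_)
  obtain ⟨φ⟩ := he
  refine le_antisymm (len_sm_inj _ _ φ.toLinearMap φ.injective)
    (len_sm_surj _ _ φ.toLinearMap φ.surjective)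

/-- `lam~ M = 0` if `g_n M_e = 0` for all `n` and most `e`. -/
theorem tld_eq_zero (h0 : ∀ n, ∀ᶠ e in D.U, ∀ x : M e, D.g n e • x = 0) : tld D M = 0 := by
  refine le_antisymm (iSup_le fun n => ulim_le _ ((h0 n).mono fun e he => ?_)) zero_le
  have : sm (D.g n e) (M e) = ⊥ := by
    rw [eq_bot_iff]
    intro x hx
    obtain ⟨y, rfl⟩ := mem_sm.1 hx
    rw [he y]
    exact Submodule.zero_mem _
  rw [this]
  exact (len_subsingleton _).le

theorem tld_le_len : tld D M ≤ ulim D.U fun e => (D.L e).len (M e) :=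
  iSup_le fun _ => ulim_mono _ (Eventually.of_forall fun _ => len_sm_le_len _ _)

/-- subadditivity: middle exactness (levelwise, eventually) suffices. -/
theorem tld_le_add (f : ∀ e, M e →ₗ[A e] N e) (g : ∀ e, N e →ₗ[A e] K e)
    (hfg : ∀ᶠ e in D.U, LinearMap.ker (g e) ≤ LinearMap.range (f e)) :
    tld D N ≤ tld D M + tld D K := by
  refine iSup_le fun n => ?_
  refine le_trans ?_ (add_le_add (FF_le_tld D (n + 1)) (FF_le_tld D (n + 1)))
  rw [FF, FF, FF, ← ulim_add]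
  refine ulim_mono _ (hfg.mono fun e he => ?_)
  exact (len_mono _ (sm_le (D.dvd n e))).trans (len_sm_le _ _ _ (f e) (g e) he)

/-- superadditivity. -/
theorem add_le_tld (f : ∀ e, M e →ₗ[A e] N e) (g : ∀ e, N e →ₗ[A e] K e)
    (hf : ∀ᶠ e in D.U, Function.Injective (f e)) (hg : ∀ᶠ e in D.U, Function.Surjective (g e))
    (hfg : ∀ᶠ e in D.U, LinearMap.range (f e) ≤ LinearMap.ker (g e)) :
    tld D M + tld D K ≤ tld D N := by
  rw [tld, tld, ENNReal.iSup_add_iSup_of_monotone (FF_mono D) (FF_mono D)]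
  refine iSup_mono fun n => ?_
  rw [FF, FF, FF, ← ulim_add]
  exact ulim_mono _ ((hf.and (hg.and hfg)).mono fun e he =>
    len_sm_ge _ _ (f e) (g e) he.1 he.2.1 he.2.2)

/-- **additivity of `lam~`** on (eventually) exact sequences. -/
theorem tld_add (f : ∀ e, M e →ₗ[A e] N e) (g : ∀ e, N e →ₗ[A e] K e)
    (hf : ∀ᶠ e in D.U, Function.Injective (f e)) (hg : ∀ᶠ e in D.U, Function.Surjective (g e))
    (hfg : ∀ᶠ e in D.U, Function.Exact (f e) (g e)) :
    tld D N = tld D M + tld D K := by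
  have hex : ∀ᶠ e in D.U, LinearMap.ker (g e) = LinearMap.range (f e) :=
    hfg.mono fun e he => (LinearMap.exact_iff).1 he
  exact le_antisymm (tld_le_add D f g (hex.mono fun e he => he.le))
    (add_le_tld D f g hf hg (hex.mono fun e he => he.ge))

end Tld

end Vale.Agent.P177.Mass
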